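import Vale.Agent.P186.H687.Kill

/-!
P186: a torsion-free word-hyperbolic group which is not residually finite, with a finite set of
nontrivial elements that meets the kernel of every homomorphism to a sofic group, to a surjunctive
group and to a group with a directly finite group algebra in characteristic 2.
-/

universe u v

theorem Vale.Agent.Results.P186.FiniteObstruction.result :
    ∃ (G : Type) (_ : Group G), (∀ g : G, ∀ m : ℕ, 0 < m → g ^ m = 1 → g = 1) ∧
      Vale.Agent.P186.IsHyperbolicGroup G ∧ ¬ Group.ResiduallyFinite G ∧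
      ∃ F : Finset G, (1 : G) ∉ F ∧ ∀ (Q : Type v) [Group Q],
        (Vale.Agent.P194.IsSofic Q ∨ Vale.Agent.P194.IsSurjunctive Q ∨
          ∃ (K : Type u) (_ : Ring K) (_ : Nontrivial K),
            CharP K 2 ∧ ∀ a b : MonoidAlgebra K Q, a * b = 1 → b * a = 1) →
        ∀ f : G →* Q, ∃ g ∈ F, f g = 1 :=
  Vale.Agent.P186.H687.main
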