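import Vale.Agent.P186.H570.Main

/-!
P186: a torsion-free word-hyperbolic group which is not residually finite and not even sofic, and
in which one fixed nontrivial element is killed by every homomorphism to a sofic group (for example
a finite group) and by every finite-dimensional linear representation over every field.
-/

universe u v w

theorem Vale.Agent.Results.P186.NonSoficHyperbolic.result :
    ∃ (G : Type) (_ : Group G), (∀ g : G, ∀ m : ℕ, 0 < m → g ^ m = 1 → g = 1) ∧
      Vale.Agent.P186.IsHyperbolicGroup G ∧ ¬ Group.ResiduallyFinite G ∧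
      ¬ Vale.Agent.P194.IsSofic G ∧
      (∃ g : G, g ≠ 1 ∧
        (∀ (Q : Type u) [Group Q], Vale.Agent.P194.IsSofic Q → ∀ f : G →* Q, f g = 1) ∧
        (∀ (K : Type v) [Field K] (n : ℕ) (f : G →* Matrix.GeneralLinearGroup (Fin n) K),
          f g = 1)) ∧
      (∀ (K : Type w) [Field K] [CharP K 2],
        ∃ a b : MonoidAlgebra K G, a * b = 1 ∧ b * a ≠ 1) :=
  Vale.Agent.P186.H570.main
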